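import Vale.Agent.Lib.P084G.IV.Lin
import Vale.Agent.Lib.P084G.II.ARlin
import Vale.Agent.Lib.P084G.II.CaseG
import Vale.Agent.Lib.P084G.II.CaseH3
import Vale.Agent.Lib.P084G.II.LOD
import Vale.Agent.Lib.P084G.II.Odd
import Vale.Agent.Lib.P084G.MainNS
import Vale.Agent.Lib.P084F.MainAll

/-!
# P084G, part IV: the final assembly
-/

open Filter Topology Metric

namespace P084GIV

open P084GII Vale.Agent.P084G

/-- the K0 statement (hypothesis form) -/
def K0Stmt (X Y : Type*) [NormedAddCommGroup X] [NormedSpace ℝ X] [NormedAddCommGroup Y]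
    [NormedSpace ℝ Y] : Prop :=
  ∀ (J : X → X →L[ℝ] ℝ) (K : Y → Y →L[ℝ] ℝ) (T : X → Y) (S : Y → X) (C C' : ℝ),
    Dual2 J C → Dual2 K C' → HI T S → AQ X → AQ Y → (∀ x, T (-x) = - T x) →
    ∀ p p' u : X, ‖p‖ = 1 → ‖p'‖ = 1 → J p u = 0 → J p' u = 0 →
      (∀ s r : ℝ, 0 ≤ s → s ≤ 1 → (1 - s) • p + s • p' ≠ r • u) →
      fderiv ℝ T p u = fderiv ℝ T p' u

section

variable {X Y : Type*} [NormedAddCommGroup X] [NormedSpace ℝ X] [NormedAddCommGroup Y]
  [NormedSpace ℝ Y]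

theorem usm_of_unif (hX : UnifSmooth X) : USm X := by
  intro ε hε
  obtain ⟨δ, hδ, H⟩ := hX ε hε
  refine ⟨δ, hδ, fun x h hx hh => ?_⟩
  rcases eq_or_ne h 0 with rfl | h0
  · unfold sd
    rw [add_zero, sub_zero, norm_zero, mul_zero]
    linarith
  · have hn : 0 < ‖h‖ := norm_pos_iff.2 h0
    have h1 : ‖‖h‖⁻¹ • h‖ = 1 := by rw [norm_smul, norm_inv, norm_norm, inv_mul_cancel₀ hn.ne']
    have h2 := H x (‖h‖⁻¹ • h) hx h1 ‖h‖ hn hh
    rw [smul_smul, mul_inv_cancel₀ hn.ne', one_smul] at h2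
    unfold sd
    rw [hx]
    linarith

/-- the uniformly smooth case in dimension at least three -/
theorem us_case [CompleteSpace X] [CompleteSpace Y] (hk0 : K0Stmt X Y) (hX : USm X) (hY : USm Y)
    (h3 : 2 < Module.rank ℝ X) {T : X → Y} {S : Y → X} (h : HI T S) :
    ∃ L : X ≃ₗᵢ[ℝ] Y, ∀ x, T x = L x := by
  obtain ⟨J, hJ⟩ := exists_dualU hX
  obtain ⟨K, hK⟩ := exists_dualU hY
  -- linearity of `S` gives linearity of `T`
  have hback : (∃ L : Y ≃ₗᵢ[ℝ] X, ∀ y, S y = L y) → ∃ L : X ≃ₗᵢ[ℝ] Y, ∀ x, T x = L x := by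
    rintro ⟨L, hL⟩
    refine ⟨L.symm, fun x => ?_⟩
    have h1 : L (T x) = x := by rw [← hL, h.ST]
    rw [← h1, LinearIsometryEquiv.symm_apply_apply, h1]
  by_cases h2X : ∀ C : ℝ, ¬ US2 X C
  · exact ar_linear hJ hK h (caseG hJ hK h h2X)
  by_cases h2Y : ∀ C : ℝ, ¬ US2 Y C
  · exact hback (ar_linear hK hJ h.symm (caseG hK hJ h.symm h2Y))
  push Not at h2X h2Y
  obtain ⟨C1, hC1⟩ := h2X
  obtain ⟨C2, hC2⟩ := h2Y
  obtain ⟨J, C, hJ2⟩ := exists_dual2 hC1
  obtain ⟨K, C', hK2⟩ := exists_dual2 hC2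
  by_cases hAX : AQ X
  swap
  · exact ar_linear hJ2.toU hK2.toU h (caseH hJ2 hK2 h hAX)
  by_cases hAY : AQ Y
  swap
  · exact hback (ar_linear hK2.toU hJ2.toU h.symm (caseH hK2 hJ2 h.symm hAY))
  have hodd : ∀ x, T (-x) = - T x := odd_main hJ2.toU h
  refine lin_of_k0 hJ2.toU hK2.toU h hodd h3 fun p p' u hp hp' hu hu' => ?_
  exact k0_all hJ2.toU h3 (hk0 J K T S C C' hJ2 hK2 h hAX hAY hodd) hp hp' hu hu'

/-- **Tingley's problem.** -/
theorem tingley [CompleteSpace X] [CompleteSpace Y] (hk0 : K0Stmt X Y)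
    (f : sphere (0 : X) 1 → sphere (0 : Y) 1) (hf : Isometry f) (hs : Function.Surjective f) :
    ∃ T : X ≃ₗᵢ[ℝ] Y, ∀ x : sphere (0 : X) 1, T (x : X) = (f x : Y) := by
  by_cases hfin : FiniteDimensional ℝ X
  · exact Vale.Agent.P084.main_all_finite f hf hs
  by_cases hX : UnifSmooth X
  swap
  · exact main_ns_sphere hX f hf hs
  by_cases hY : UnifSmooth Y
  swap
  · -- apply the theorem to the inverse map
    have hinj : Function.Injective f := hf.injective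
    let e : sphere (0 : X) 1 ≃ sphere (0 : Y) 1 := Equiv.ofBijective f ⟨hinj, hs⟩
    have he : ∀ x, e x = f x := fun _ => rfl
    have hgiso : Isometry e.symm := by
      apply Isometry.of_dist_eq
      intro x y
      have := hf.dist_eq (e.symm x) (e.symm y)
      rw [← he, ← he, Equiv.apply_symm_apply, Equiv.apply_symm_apply] at this
      exact this.symm
    obtain ⟨T, hT⟩ := main_ns_sphere hY (fun y => e.symm y) hgiso e.symm.surjective
    refine ⟨T.symm, fun x => ?_⟩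
    have h1 := hT (f x)
    have h2 : e.symm (f x) = x := by rw [← he, Equiv.symm_apply_apply]
    rw [h2] at h1
    rw [← h1, LinearIsometryEquiv.symm_apply_apply]
  have h3 : 2 < Module.rank ℝ X := by
    have h4 : Cardinal.aleph0 ≤ Module.rank ℝ X := by
      by_contra hlt
      push Not at hlt
      exact hfin (Module.rank_lt_aleph0_iff.1 hlt)
    exact lt_of_lt_of_le (by exact_mod_cast Cardinal.nat_lt_aleph0 2) h4
  obtain ⟨F, G, hFG, hF⟩ := exists_siso f hf hs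
  obtain ⟨T, S, hTS, hT⟩ := exists_HI hFG
  obtain ⟨L, hL⟩ := us_case hk0 (usm_of_unif hX) (usm_of_unif hY) h3 hTS
  refine ⟨L, fun x => ?_⟩
  rw [← hL, hT x (by simp), hF]

end

end P084GIV
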