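import Vale.Agent.Lib.P084G.II.Diff

/-!
# P084G, part IV: from the independence of `fderiv T p u` of `p` to linearity

If `fderiv T p u` is the same for all unit `p` with `J p u = 0` then `T` is linear (dimension at least three).
-/

open Filter Topology

namespace P084GIV

open P084GII

variable {X Y : Type*} [NormedAddCommGroup X] [NormedSpace ℝ X] [NormedAddCommGroup Y]
  [NormedSpace ℝ Y] {J : X → X →L[ℝ] ℝ} {K : Y → Y →L[ℝ] ℝ} {T : X → Y} {S : Y → X}

/-- best approximation: for a finite-dimensional subspace `F` and `w ∉ F` there is a unit vector `p` in `w + F` (up to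
scaling) whose norming functional vanishes on `F` -/
theorem exists_perp (hJ : DualU J) (F : Submodule ℝ X) [FiniteDimensional ℝ F] {w : X}
    (hw : w ∉ F) : ∃ (p : X) (c : ℝ), c ≠ 0 ∧ ‖p‖ = 1 ∧ c • p - w ∈ F ∧ ∀ v ∈ F, J p v = 0 := by
  have hcont : Continuous (fun f : F => ‖w - (f : X)‖) := by fun_prop
  have hlim : Tendsto (fun f : F => ‖w - (f : X)‖) (cocompact F) atTop := by
    have h1 : Tendsto (fun f : F => ‖f‖ - ‖w‖) (cocompact F) atTop :=
      tendsto_atTop_add_const_right _ _ (tendsto_norm_cocompact_atTop)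
    refine tendsto_atTop_mono (fun f => ?_) h1
    have h2 := norm_sub_norm_le (f : X) w
    rw [norm_sub_rev] at h2
    exact h2
  obtain ⟨f, hf⟩ := hcont.exists_forall_le hlim
  set z : X := w - f with hz
  have hz0 : z ≠ 0 := by
    intro h0
    apply hw
    rw [sub_eq_zero.1 h0]
    exact f.2
  have hzn : 0 < ‖z‖ := norm_pos_iff.2 hz0
  refine ⟨‖z‖⁻¹ • z, ‖z‖, hzn.ne', ?_, ?_, ?_⟩
  · rw [norm_smul, norm_inv, norm_norm, inv_mul_cancel₀ hzn.ne']
  · rw [smul_smul, mul_inv_cancel₀ hzn.ne', one_smul, hz, sub_sub_cancel_left]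
    exact F.neg_mem f.2
  · intro v hv
    rw [hJ.smul _ (inv_pos.2 hzn)]
    have hd : HasDerivAt (fun s : ℝ => ‖z + s • v‖) (J z v) 0 := by
      have a0 : HasDerivAt (fun s : ℝ => z + s • v) v 0 := by
        have := ((hasDerivAt_id (0 : ℝ)).smul_const v).const_add z
        simpa using this
      have a1 : HasFDerivAt (fun y : X => ‖y‖) (J z) (z + (0 : ℝ) • v) := by
        rw [zero_smul, add_zero]
        exact hJ.hasFDerivAt hz0
      exact a1.comp_hasDerivAt (0 : ℝ) a0
    have hmin : IsLocalMin (fun s : ℝ => ‖z + s • v‖) 0 := by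
      refine Filter.Eventually.of_forall fun s => ?_
      simp only [zero_smul, add_zero]
      have h1 := hf (f - s • ⟨v, hv⟩)
      have h2 : w - ((f - s • (⟨v, hv⟩ : F) : F) : X) = z + s • v := by
        rw [hz]
        simp only [Submodule.coe_sub, Submodule.coe_smul]
        abel
      rw [h2] at h1
      exact h1
    exact hmin.hasDerivAt_eq_zero hd

/-- if the ambient rank is at least three then two vectors do not span -/
theorem exists_not_mem_span (h3 : 2 < Module.rank ℝ X) (u v : X) :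
    ∃ w : X, w ∉ Submodule.span ℝ ({u, v} : Set X) := by
  by_contra hcon
  push Not at hcon
  have htop : Submodule.span ℝ ({u, v} : Set X) = ⊤ := by
    rw [eq_top_iff]
    intro w _
    exact hcon w
  have h1 : Module.rank ℝ (Submodule.span ℝ ({u, v} : Set X)) ≤ Cardinal.mk ({u, v} : Set X) :=
    rank_span_le _
  have h2 : Cardinal.mk ({u, v} : Set X) ≤ 2 := by
    have := Cardinal.mk_insert_le (s := ({v} : Set X)) (a := u)
    refine this.trans ?_
    rw [Cardinal.mk_singleton]
    norm_num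
  rw [htop, rank_top] at h1
  exact absurd (h1.trans h2) (not_le.2 h3)

/-- removal of the segment condition -/
theorem k0_all (hJ : DualU J) (h3 : 2 < Module.rank ℝ X)
    (hk : ∀ p p' u : X, ‖p‖ = 1 → ‖p'‖ = 1 → J p u = 0 → J p' u = 0 →
      (∀ s r : ℝ, 0 ≤ s → s ≤ 1 → (1 - s) • p + s • p' ≠ r • u) →
      fderiv ℝ T p u = fderiv ℝ T p' u)
    {p p' u : X} (hp : ‖p‖ = 1) (hp' : ‖p'‖ = 1) (hu : J p u = 0) (hu' : J p' u = 0) :
    fderiv ℝ T p u = fderiv ℝ T p' u := by
  rcases eq_or_ne u 0 with rfl | hu0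
  · rw [map_zero, map_zero]
  -- `p` is not a multiple of `u`
  have hnot : ∀ x : X, ‖x‖ = 1 → J x u = 0 → ∀ r : ℝ, x ≠ r • u := by
    intro x hx hxu r hr
    have h1 := hJ.self x
    have h2 : J x x = r * J x u := by
      nth_rewrite 2 [hr]
      rw [map_smul, smul_eq_mul]
    rw [h2, hxu, mul_zero, hx] at h1
    exact zero_ne_one h1
  by_cases hseg : ∀ s r : ℝ, 0 ≤ s → s ≤ 1 → (1 - s) • p + s • p' ≠ r • u
  · exact hk p p' u hp hp' hu hu' hseg
  · push Not at hseg
    obtain ⟨s, r, hs0, hs1, hsr⟩ := hseg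
    -- `p'` is in the span of `p` and `u`
    have hsne : s ≠ 0 := by
      rintro rfl
      rw [sub_zero, one_smul, zero_smul, add_zero] at hsr
      exact hnot p hp hu r hsr
    have hp'mem : p' ∈ Submodule.span ℝ ({p, u} : Set X) := by
      have e : p' = (s⁻¹ * r) • u - (s⁻¹ * (1 - s)) • p := by
        have h1 : s • p' = r • u - (1 - s) • p := by rw [← hsr]; abel
        calc p' = s⁻¹ • (s • p') := by rw [smul_smul, inv_mul_cancel₀ hsne, one_smul]
          _ = _ := by rw [h1, smul_sub, smul_smul, smul_smul]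
      rw [e]
      exact Submodule.sub_mem _ (Submodule.smul_mem _ _ (Submodule.subset_span (by simp)))
        (Submodule.smul_mem _ _ (Submodule.subset_span (by simp)))
    obtain ⟨w, hw⟩ := exists_not_mem_span h3 p u
    have hwu : w ∉ Submodule.span ℝ ({u} : Set X) := by
      intro h
      apply hw
      exact Submodule.span_mono (by simp) h
    obtain ⟨q, c, hc, hq, hqw, hqu⟩ := exists_perp hJ (Submodule.span ℝ ({u} : Set X)) hwu
    have hqu' : J q u = 0 := hqu u (Submodule.mem_span_singleton_self u)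
    have hqnot : q ∉ Submodule.span ℝ ({p, u} : Set X) := by
      intro hqm
      apply hw
      have h1 : w = c • q - (c • q - w) := by abel
      rw [h1]
      exact Submodule.sub_mem _ (Submodule.smul_mem _ _ hqm)
        (Submodule.span_mono (by simp) hqw)
    have key : ∀ x : X, ‖x‖ = 1 → J x u = 0 → x ∈ Submodule.span ℝ ({p, u} : Set X) →
        fderiv ℝ T x u = fderiv ℝ T q u := by
      intro x hx hxu hxm
      refine hk x q u hx hq hxu hqu' fun s r hs0 hs1 hsr => ?_
      have hsne : s ≠ 0 := by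
        rintro rfl
        rw [sub_zero, one_smul, zero_smul, add_zero] at hsr
        exact hnot x hx hxu r hsr
      apply hqnot
      have e : q = (s⁻¹ * r) • u - (s⁻¹ * (1 - s)) • x := by
        have h1 : s • q = r • u - (1 - s) • x := by rw [← hsr]; abel
        calc q = s⁻¹ • (s • q) := by rw [smul_smul, inv_mul_cancel₀ hsne, one_smul]
          _ = _ := by rw [h1, smul_sub, smul_smul, smul_smul]
      rw [e]
      exact Submodule.sub_mem _ (Submodule.smul_mem _ _ (Submodule.subset_span (by simp)))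
        (Submodule.smul_mem _ _ hxm)
    rw [key p hp hu (Submodule.subset_span (by simp)), key p' hp' hu' hp'mem]

/-- **Linearity.** -/
theorem lin_of_k0 [CompleteSpace X] [CompleteSpace Y] (hJ : DualU J) (hK : DualU K) (h : HI T S)
    (hodd : ∀ x, T (-x) = - T x) (h3 : 2 < Module.rank ℝ X)
    (hk : ∀ p p' u : X, ‖p‖ = 1 → ‖p'‖ = 1 → J p u = 0 → J p' u = 0 →
      fderiv ℝ T p u = fderiv ℝ T p' u) : ∃ L : X ≃ₗᵢ[ℝ] Y, ∀ x, T x = L x := by
  -- unit vectors whose functional kills two given vectors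
  have hex : ∀ u v : X, ∃ p : X, ‖p‖ = 1 ∧ J p u = 0 ∧ J p v = 0 := by
    intro u v
    obtain ⟨w, hw⟩ := exists_not_mem_span h3 u v
    have : FiniteDimensional ℝ (Submodule.span ℝ ({u, v} : Set X)) :=
      FiniteDimensional.span_of_finite ℝ (by simp)
    obtain ⟨p, c, -, hp, -, hpF⟩ := exists_perp hJ _ hw
    exact ⟨p, hp, hpF u (Submodule.subset_span (by simp)), hpF v (Submodule.subset_span (by simp))⟩
  choose P hP1 hP2 hP3 using fun u : X => hex u u
  let L0 : X → Y := fun u => fderiv ℝ T (P u) u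
  have hL0 : ∀ p u : X, ‖p‖ = 1 → J p u = 0 → L0 u = fderiv ℝ T p u := fun p u hp hu =>
    hk (P u) p u (hP1 u) hp (hP2 u) hu
  let L : X →ₗᵢ[ℝ] Y :=
    { toFun := L0
      map_add' := by
        intro u v
        obtain ⟨p, hp, hu, hv⟩ := hex u v
        rw [hL0 p u hp hu, hL0 p v hp hv, hL0 p (u + v) hp (by rw [map_add, hu, hv, add_zero]),
          map_add]
      map_smul' := by
        intro c u
        have hcu : J (P u) (c • u) = 0 := by rw [map_smul, hP2 u, smul_zero]
        rw [hL0 (P u) (c • u) (hP1 u) hcu, map_smul]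
        rfl
      norm_map' := by
        intro u
        exact fd_iso hJ hK h (hP1 u) (hP2 u) }
  have hL : ∀ p u : X, ‖p‖ = 1 → J p u = 0 → L u = fderiv ℝ T p u := hL0
  -- the difference quotient `ψ x = (T x - L x)/‖x‖` is locally constant
  have hx1 : ∀ x : X, x ≠ 0 → ‖‖x‖⁻¹ • x‖ = 1 := fun x hx => by
    rw [norm_smul, norm_inv, norm_norm, inv_mul_cancel₀ (norm_ne_zero_iff.2 hx)]
  have hder : ∀ x : X, x ≠ 0 → ∀ v : X,
      fderiv ℝ T x v - L v = (J x v * ‖x‖⁻¹) • (T x - L x) := by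
    intro x hx v
    have hxn : 0 < ‖x‖ := norm_pos_iff.2 hx
    have h1 : J x (v - (J x v * ‖x‖⁻¹) • x) = 0 := by
      rw [map_sub, map_smul, hJ.self, smul_eq_mul, mul_assoc, inv_mul_cancel₀ hxn.ne', mul_one,
        sub_self]
    have h2 : J (‖x‖⁻¹ • x) (v - (J x v * ‖x‖⁻¹) • x) = 0 := by
      rw [hJ.smul _ (inv_pos.2 hxn)]; exact h1
    have h4 := hL (‖x‖⁻¹ • x) _ (hx1 x hx) h2
    rw [fd_smul hJ hK h hx (inv_pos.2 hxn)] at h4
    rw [map_sub, map_sub, map_smul, map_smul, fd_self hJ hK h hx] at h4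
    rw [smul_sub]
    have h5 : fderiv ℝ T x v = L v - (J x v * ‖x‖⁻¹) • L x + (J x v * ‖x‖⁻¹) • T x := by
      rw [h4]; abel
    rw [h5]; abel
  let ψ : X → Y := fun x => ‖x‖⁻¹ • (T x - L x)
  have hψ : ∀ x : X, x ≠ 0 → HasFDerivAt ψ (0 : X →L[ℝ] Y) x := by
    intro x hx
    have hxn : 0 < ‖x‖ := norm_pos_iff.2 hx
    have d1 : HasFDerivAt (fun y : X => ‖y‖⁻¹) (-(‖x‖ ^ 2)⁻¹ • J x) x :=
      (hasDerivAt_inv hxn.ne').comp_hasFDerivAt x (hJ.hasFDerivAt hx)
    have d2 : HasFDerivAt (fun y : X => T y - L y)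
        (fderiv ℝ T x - L.toContinuousLinearMap) x :=
      (hasFD hJ hK h hx).sub L.toContinuousLinearMap.hasFDerivAt
    have d3 := d1.smul d2
    refine d3.congr_fderiv ?_
    ext v
    have h4 := hder x hx v
    change ‖x‖⁻¹ • (fderiv ℝ T x v - L v) + (-(‖x‖ ^ 2)⁻¹ * J x v) • (T x - L x) = 0
    rw [h4, smul_smul, ← add_smul]
    have h5 : ‖x‖⁻¹ * (J x v * ‖x‖⁻¹) + -(‖x‖ ^ 2)⁻¹ * J x v = 0 := by
      field_simp
      ring
    rw [h5, zero_smul]
  have hconn : IsPreconnected ({0}ᶜ : Set X) :=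
    (isConnected_compl_singleton_of_one_lt_rank
      (lt_trans (by norm_num) h3) (0 : X)).isPreconnected
  have hconst : ∀ x y : X, x ≠ 0 → y ≠ 0 → ψ x = ψ y := by
    intro x y hx hy
    refine IsOpen.is_const_of_fderiv_eq_zero (𝕜 := ℝ) isOpen_compl_singleton hconn ?_ ?_
      (by simpa using hx) (by simpa using hy)
    · intro z hz
      exact (hψ z (by simpa using hz)).differentiableAt.differentiableWithinAt
    · intro z hz
      exact (hψ z (by simpa using hz)).fderiv
  have hzero : ∀ x : X, x ≠ 0 → ψ x = 0 := by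
    intro x hx
    have h1 := hconst x (-x) hx (neg_ne_zero.2 hx)
    have h2 : ψ (-x) = - ψ x := by
      simp only [ψ]
      rw [norm_neg, hodd, map_neg, ← smul_neg]
      congr 1
      abel
    rw [h2] at h1
    have h4 : (2 : ℝ) • ψ x = 0 := by
      rw [two_smul]
      nth_rewrite 1 [h1]
      simp
    rcases smul_eq_zero.1 h4 with h5 | h5
    · norm_num at h5
    · exact h5
  have hTL : ∀ x, T x = L x := by
    intro x
    rcases eq_or_ne x 0 with rfl | hx
    · rw [map_zero, ← norm_eq_zero, h.norm, norm_zero]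
    · have h1 := hzero x hx
      have hxn : ‖x‖⁻¹ ≠ 0 := inv_ne_zero (norm_ne_zero_iff.2 hx)
      exact sub_eq_zero.1 ((smul_eq_zero.1 h1).resolve_left hxn)
  have hsurj : Function.Surjective L := by
    intro y
    exact ⟨S y, by rw [← hTL, h.TS]⟩
  exact ⟨LinearIsometryEquiv.ofSurjective L hsurj, fun x => hTL x⟩

end P084GIV
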